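import Vale.Agent.P014U.Base
import Vale.Agent.P004S.G.Defs

/-! # P014U: the field and its integers, cochains modulo the integers (helper42) -/

set_option linter.all false

noncomputable section

namespace Vale.Agent.P014U.X4S.Ga

variable [Pp]

export Vale.Agent.P004S.Ga (Pl cm Le Rat Mon Lv)

/-- the field -/
abbrev K : Type := ℚ_[pp]

/-- the integers -/
def O : AddSubgroup K := (PadicInt.subring pp).toAddSubgroup

theorem mem_O {x : K} : x ∈ O ↔ ‖x‖ ≤ 1 := Iff.rfl

variable {G : Type} [Group G]

/-- the differential of a function with values in `K (cy)` -/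
def d2 (cy : G →* K) (θ : G → K) (g h : G) : K := cy g * θ h - θ (g * h) + θ g

/-- the differential of a function of two variables with values in `K (cy)` -/
def d3 (cy : G →* K) (z : G → G → K) (g h k : G) : K :=
  cy g * z h k - z (g * h) k + z g (h * k) - z g h

variable [TopologicalSpace G]

/-- quadratic characters -/
structure Qc (χ : G →* K) : Prop where
  sq : ∀ g, χ g = 1 ∨ χ g = -1
  cont : Continuous χ

/-- two cocycles modulo `O` -/
structure Z2 (cy : G →* K) (D : Subgroup G) (z : G → G → K) : Prop where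
  cont : ContinuousOn (fun p : G × G => z p.1 p.2) ((D : Set G) ×ˢ (D : Set G))
  coc : ∀ g ∈ D, ∀ h ∈ D, ∀ k ∈ D, d3 cy z g h k ∈ O

/-- two coboundaries modulo `O` -/
def B2 (cy : G →* K) (D : Subgroup G) (z : G → G → K) : Prop :=
  ∃ θ : G → K, ContinuousOn θ D ∧ ∀ g ∈ D, ∀ h ∈ D, z g h - d2 cy θ g h ∈ O

end Vale.Agent.P014U.X4S.Ga
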